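import Mathlib

namespace Vale.Agent.Results.P334.GreedyAspect

variable {X J F : Type*} [PseudoMetricSpace X] [Fintype J] [Fintype F] [DecidableEq F]

/-- Connection cost `d(j,S)`: the least distance from client `j` to a facility of `S`. -/
noncomputable def conn (cl : J → X) (fa : F → X) (j : J) (S : Finset F) : ℝ :=
  sInf ((fun i => dist (cl j) (fa i)) '' (S : Set F))

/-- The `k`-median cost of a set of facilities. -/
noncomputable def cost (cl : J → X) (fa : F → X) (S : Finset F) : ℝ :=
  ∑ j, conn cl fa j S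

/-- `g 0, g 1, ..., g (k-1)` is a run of the greedy algorithm: at each step the facility whose
addition gives the smallest cost is added. -/
def IsGreedyRun (cl : J → X) (fa : F → X) (g : ℕ → F) (k : ℕ) : Prop :=
  ∀ t < k, ∀ i : F, cost cl fa (insert (g t) ((Finset.range t).image g)) ≤
    cost cl fa (insert i ((Finset.range t).image g))

/-- capped connection cost -/
noncomputable def capc (cl : J → X) (fa : F → X) (b : ℝ) (j : J) (S : Finset F) : ℝ :=
  S.fold min b (fun i => dist (cl j) (fa i))

omit [Fintype J] [Fintype F] [DecidableEq F] in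
theorem capc_eq_conn (cl : J → X) (fa : F → X) (b : ℝ) (hb : ∀ j i, dist (cl j) (fa i) ≤ b)
    (j : J) (S : Finset F) (hS : S.Nonempty) : capc cl fa b j S = conn cl fa j S := by
  unfold capc conn
  have hbdd : BddBelow ((fun i => dist (cl j) (fa i)) '' (S : Set F)) :=
    (S.finite_toSet.image _).bddBelow
  apply le_antisymm
  · apply le_csInf (hS.to_set.image _)
    rintro _ ⟨x, hx, rfl⟩
    exact (Finset.fold_min_le _).mpr (Or.inr ⟨x, hx, le_rfl⟩)
  · rw [Finset.le_fold_min]
    constructor
    · obtain ⟨x, hx⟩ := hS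
      exact le_trans (csInf_le hbdd ⟨x, hx, rfl⟩) (hb j x)
    · intro x hx
      exact csInf_le hbdd ⟨x, hx, rfl⟩

omit [Fintype J] [Fintype F] in
theorem capc_insert (cl : J → X) (fa : F → X) (b : ℝ) (j : J) (i : F) (S : Finset F) :
    capc cl fa b j (insert i S) = min (dist (cl j) (fa i)) (capc cl fa b j S) := by
  unfold capc
  exact Finset.fold_insert_idem

omit [Fintype J] [Fintype F] [DecidableEq F] in
theorem capc_mono (cl : J → X) (fa : F → X) (b : ℝ) (j : J) (S S' : Finset F) (h : S ⊆ S') :
    capc cl fa b j S' ≤ capc cl fa b j S := by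
  unfold capc
  rw [Finset.le_fold_min]
  constructor
  · exact (Finset.fold_min_le _).mpr (Or.inl le_rfl)
  · intro x hx
    exact (Finset.fold_min_le _).mpr (Or.inr ⟨x, h hx, le_rfl⟩)

omit [Fintype J] [Fintype F] in
/-- submodularity-type inequality for one client -/
theorem capc_union (cl : J → X) (fa : F → X) (b : ℝ) (j : J) (S Q : Finset F) :
    capc cl fa b j S - capc cl fa b j (S ∪ Q) ≤
      ∑ i ∈ Q, (capc cl fa b j S - capc cl fa b j (insert i S)) := by
  induction Q using Finset.induction_on with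
  | empty => simp
  | insert i Q hi ih =>
    rw [Finset.sum_insert hi, Finset.union_insert, capc_insert, capc_insert]
    have h1 : capc cl fa b j (S ∪ Q) ≤ capc cl fa b j S :=
      capc_mono cl fa b j S (S ∪ Q) Finset.subset_union_left
    rcases le_total (dist (cl j) (fa i)) (capc cl fa b j (S ∪ Q)) with h | h
    · rw [min_eq_left h, min_eq_left (le_trans h h1)]
      linarith
    · rw [min_eq_right h]
      have : min (dist (cl j) (fa i)) (capc cl fa b j S) ≤ capc cl fa b j S := min_le_right _ _
      linarith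

/-- total capped cost -/
noncomputable def capC (cl : J → X) (fa : F → X) (b : ℝ) (S : Finset F) : ℝ :=
  ∑ j, capc cl fa b j S

omit [Fintype F] [DecidableEq F] in
theorem capC_eq_cost (cl : J → X) (fa : F → X) (b : ℝ) (hb : ∀ j i, dist (cl j) (fa i) ≤ b)
    (S : Finset F) (hS : S.Nonempty) : capC cl fa b S = cost cl fa S := by
  unfold capC cost
  exact Finset.sum_congr rfl (fun j _ => capc_eq_conn cl fa b hb j S hS)

omit [Fintype F] in
theorem capC_union (cl : J → X) (fa : F → X) (b : ℝ) (S Q : Finset F) :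
    capC cl fa b S - capC cl fa b (S ∪ Q) ≤
      ∑ i ∈ Q, (capC cl fa b S - capC cl fa b (insert i S)) := by
  unfold capC
  rw [← Finset.sum_sub_distrib]
  have : ∑ i ∈ Q, (∑ j, capc cl fa b j S - ∑ j, capc cl fa b j (insert i S))
      = ∑ j, ∑ i ∈ Q, (capc cl fa b j S - capc cl fa b j (insert i S)) := by
    rw [Finset.sum_comm]
    exact Finset.sum_congr rfl (fun i _ => by rw [Finset.sum_sub_distrib])
  rw [this]
  exact Finset.sum_le_sum (fun j _ => capc_union cl fa b j S Q)

omit [Fintype F] [DecidableEq F] in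
theorem capC_mono (cl : J → X) (fa : F → X) (b : ℝ) (S S' : Finset F) (h : S ⊆ S') :
    capC cl fa b S' ≤ capC cl fa b S :=
  Finset.sum_le_sum (fun j _ => capc_mono cl fa b j S S' h)

theorem one_sub_inv_pow_le (k : ℕ) (hk : 1 ≤ k) :
    (1 - 1 / (k : ℝ)) ^ k ≤ 1 / Real.exp 1 := by
  have hk0 : (0 : ℝ) < k := by exact_mod_cast hk
  have h1 : 1 - 1 / (k : ℝ) ≤ Real.exp (-(1 / (k : ℝ))) := Real.one_sub_le_exp_neg _
  have h0 : 0 ≤ 1 - 1 / (k : ℝ) := by
    rw [sub_nonneg, div_le_one hk0]; exact_mod_cast hk
  calc (1 - 1 / (k : ℝ)) ^ k ≤ (Real.exp (-(1 / (k : ℝ)))) ^ k := pow_le_pow_left₀ h0 h1 k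
    _ = Real.exp (-1) := by
        rw [← Real.exp_nat_mul]; congr 1; field_simp
    _ = 1 / Real.exp 1 := by rw [Real.exp_neg, one_div]

omit [Fintype F] in
theorem main (cl : J → X) (fa : F → X) (a ρ : ℝ) (ha : 0 < a) (hρ : 1 ≤ ρ)
    (hlo : ∀ j i, a ≤ dist (cl j) (fa i)) (hhi : ∀ j i, dist (cl j) (fa i) ≤ ρ * a)
    (k : ℕ) (hk : 1 ≤ k) (g : ℕ → F) (hg : IsGreedyRun cl fa g k) :
    ((Finset.range k).image g).Nonempty ∧ ((Finset.range k).image g).card ≤ k ∧
    ∀ Q : Finset F, Q.Nonempty → Q.card ≤ k →
      cost cl fa ((Finset.range k).image g) ≤ (1 + (ρ - 1) / Real.exp 1) * cost cl fa Q := by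
  refine ⟨?_, ?_, ?_⟩
  · exact (Finset.nonempty_range_iff.mpr (by omega)).image g
  · exact le_trans Finset.card_image_le (by simp)
  intro Q hQ hQk
  set b : ℝ := ρ * a with hb
  set St : ℕ → Finset F := fun t => (Finset.range t).image g with hSt
  have hSsucc : ∀ t, St (t + 1) = insert (g t) (St t) := by
    intro t
    simp only [hSt, Finset.range_add_one, Finset.image_insert]
  have hk0 : (0 : ℝ) < k := by exact_mod_cast hk
  -- one step of greedy
  have hstep : ∀ t < k, capC cl fa b (St (t + 1)) - capC cl fa b Q ≤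
      (1 - 1 / (k : ℝ)) * (capC cl fa b (St t) - capC cl fa b Q) := by
    intro t ht
    have h1 := capC_union cl fa b (St t) Q
    have h2 : capC cl fa b (St t ∪ Q) ≤ capC cl fa b Q :=
      capC_mono cl fa b Q (St t ∪ Q) Finset.subset_union_right
    have h3 : ∀ i ∈ Q, capC cl fa b (St t) - capC cl fa b (insert i (St t)) ≤
        capC cl fa b (St t) - capC cl fa b (St (t + 1)) := by
      intro i _
      have := hg t ht i
      rw [← capC_eq_cost cl fa b hhi _ (Finset.insert_nonempty _ _),
        ← capC_eq_cost cl fa b hhi _ (Finset.insert_nonempty _ _)] at this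
      rw [hSsucc]
      linarith
    have h4 : ∑ i ∈ Q, (capC cl fa b (St t) - capC cl fa b (insert i (St t))) ≤
        (Q.card : ℝ) * (capC cl fa b (St t) - capC cl fa b (St (t + 1))) := by
      have := Finset.sum_le_card_nsmul Q _ _ h3
      simpa [nsmul_eq_mul] using this
    have h5 : 0 ≤ capC cl fa b (St t) - capC cl fa b (St (t + 1)) := by
      have := capC_mono cl fa b (St t) (St (t + 1)) (by rw [hSsucc]; exact Finset.subset_insert _ _)
      linarith
    have h6 : (Q.card : ℝ) * (capC cl fa b (St t) - capC cl fa b (St (t + 1))) ≤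
        (k : ℝ) * (capC cl fa b (St t) - capC cl fa b (St (t + 1))) := by
      have : (Q.card : ℝ) ≤ k := by exact_mod_cast hQk
      exact mul_le_mul_of_nonneg_right this h5
    have h7 : capC cl fa b (St t) - capC cl fa b Q ≤
        (k : ℝ) * (capC cl fa b (St t) - capC cl fa b (St (t + 1))) := by linarith
    have h8 : (capC cl fa b (St t) - capC cl fa b Q) / k ≤
        capC cl fa b (St t) - capC cl fa b (St (t + 1)) := by
      rw [div_le_iff₀ hk0]; linarith
    have e : (1 - 1 / (k : ℝ)) * (capC cl fa b (St t) - capC cl fa b Q)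
        = (capC cl fa b (St t) - capC cl fa b Q) - (capC cl fa b (St t) - capC cl fa b Q) / k := by
      ring
    rw [e]
    linarith
  have hfac0 : 0 ≤ 1 - 1 / (k : ℝ) := by
    rw [sub_nonneg, div_le_one hk0]; exact_mod_cast hk
  have hiter : ∀ t ≤ k, capC cl fa b (St t) - capC cl fa b Q ≤
      (1 - 1 / (k : ℝ)) ^ t * (capC cl fa b (St 0) - capC cl fa b Q) := by
    intro t
    induction t with
    | zero => intro _; simp
    | succ t ih =>
      intro ht
      have h1 := hstep t (by omega)
      have h2 := ih (by omega)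
      calc capC cl fa b (St (t + 1)) - capC cl fa b Q
          ≤ (1 - 1 / (k : ℝ)) * (capC cl fa b (St t) - capC cl fa b Q) := h1
        _ ≤ (1 - 1 / (k : ℝ)) * ((1 - 1 / (k : ℝ)) ^ t * (capC cl fa b (St 0) - capC cl fa b Q)) :=
            mul_le_mul_of_nonneg_left h2 hfac0
        _ = (1 - 1 / (k : ℝ)) ^ (t + 1) * (capC cl fa b (St 0) - capC cl fa b Q) := by ring
  have hfin := hiter k le_rfl
  -- the starting potential
  have hS0 : capC cl fa b (St 0) = (Fintype.card J : ℝ) * b := by
    simp [hSt, capC, capc]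
  have hab : a ≤ b := by rw [hb]; nlinarith
  have hQlo : (Fintype.card J : ℝ) * a ≤ capC cl fa b Q := by
    have : ∀ j ∈ (Finset.univ : Finset J), a ≤ capc cl fa b j Q := by
      intro j _
      unfold capc
      rw [Finset.le_fold_min]
      exact ⟨hab, fun x _ => hlo j x⟩
    have h2 := Finset.card_nsmul_le_sum Finset.univ _ a this
    simpa [nsmul_eq_mul, capC] using h2
  have hpot0 : 0 ≤ capC cl fa b (St 0) - capC cl fa b Q := by
    have := capC_mono cl fa b (St 0) Q (by simp [hSt])
    linarith
  have hexp := one_sub_inv_pow_le k hk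
  have hfin2 : capC cl fa b (St k) - capC cl fa b Q ≤
      (1 / Real.exp 1) * (capC cl fa b (St 0) - capC cl fa b Q) :=
    le_trans hfin (mul_le_mul_of_nonneg_right hexp hpot0)
  have hSk : (St k).Nonempty := (Finset.nonempty_range_iff.mpr (by omega)).image g
  rw [← capC_eq_cost cl fa b hhi _ hSk, ← capC_eq_cost cl fa b hhi _ hQ]
  have hepos : 0 < Real.exp 1 := Real.exp_pos 1
  have hbound : capC cl fa b (St 0) ≤ ρ * capC cl fa b Q := by
    rw [hS0, hb]
    calc (Fintype.card J : ℝ) * (ρ * a) = ρ * ((Fintype.card J : ℝ) * a) := by ring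
      _ ≤ ρ * capC cl fa b Q := mul_le_mul_of_nonneg_left hQlo (by linarith)
  have hinv : 0 ≤ 1 / Real.exp 1 := by positivity
  calc capC cl fa b (St k) ≤ capC cl fa b Q +
        (1 / Real.exp 1) * (capC cl fa b (St 0) - capC cl fa b Q) := by linarith
    _ ≤ capC cl fa b Q + (1 / Real.exp 1) * (ρ * capC cl fa b Q - capC cl fa b Q) := by
        have := mul_le_mul_of_nonneg_left (sub_le_sub_right hbound (capC cl fa b Q)) hinv
        linarith
    _ = (1 + (ρ - 1) / Real.exp 1) * capC cl fa b Q := by ring

/-- a facility whose addition to `S` is cheapest -/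
theorem exists_best [Nonempty F] (cl : J → X) (fa : F → X) (S : Finset F) :
    ∃ x : F, ∀ i : F, cost cl fa (insert x S) ≤ cost cl fa (insert i S) :=
  Finite.exists_min (fun i => cost cl fa (insert i S))

noncomputable def pick [Nonempty F] (cl : J → X) (fa : F → X) (S : Finset F) : F :=
  Classical.choose (exists_best cl fa S)

noncomputable def greedySets [Nonempty F] (cl : J → X) (fa : F → X) : ℕ → Finset F
  | 0 => ∅
  | t + 1 => insert (pick cl fa (greedySets cl fa t)) (greedySets cl fa t)

theorem exists_greedyRun [Nonempty F] (cl : J → X) (fa : F → X) (k : ℕ) :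
    ∃ g : ℕ → F, IsGreedyRun cl fa g k := by
  refine ⟨fun t => pick cl fa (greedySets cl fa t), ?_⟩
  have h : ∀ t, (Finset.range t).image (fun t => pick cl fa (greedySets cl fa t))
      = greedySets cl fa t := by
    intro t
    induction t with
    | zero => simp [greedySets]
    | succ t ih => rw [Finset.range_add_one, Finset.image_insert, ih]; rfl
  intro t _ i
  rw [h t]
  exact Classical.choose_spec (exists_best cl fa (greedySets cl fa t)) i

/-- Greedy is a `(1 + (ρ-1)/e)`-approximation for metric `k`-median on instances whose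
client-facility distances all lie in `[a, ρ a]`: greedy runs exist, and every greedy run of
length `k` outputs a nonempty set of at most `k` facilities whose cost is at most
`(1 + (ρ-1)/e)` times the cost of every feasible solution. -/
theorem result [Nonempty F] (cl : J → X) (fa : F → X) (a ρ : ℝ) (ha : 0 < a) (hρ : 1 ≤ ρ)
    (hlo : ∀ j i, a ≤ dist (cl j) (fa i)) (hhi : ∀ j i, dist (cl j) (fa i) ≤ ρ * a)
    (k : ℕ) (hk : 1 ≤ k) :
    (∃ g : ℕ → F, IsGreedyRun cl fa g k) ∧
    ∀ g : ℕ → F, IsGreedyRun cl fa g k →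
      ((Finset.range k).image g).Nonempty ∧ ((Finset.range k).image g).card ≤ k ∧
      ∀ Q : Finset F, Q.Nonempty → Q.card ≤ k →
        cost cl fa ((Finset.range k).image g) ≤ (1 + (ρ - 1) / Real.exp 1) * cost cl fa Q :=
  ⟨exists_greedyRun cl fa k, fun g hg => main cl fa a ρ ha hρ hlo hhi k hk g hg⟩

end Vale.Agent.Results.P334.GreedyAspect
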